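import Vale.Agent.P210X.Sta
import Vale.Agent.P210V.Ext

/-!
# P210N: the state on the limit with the Hardy weights (helper82)
-/

open Filter Topology Set
open scoped ContDiff
open Vale.Agent.P366D (Rf Mc Sub pull smooth_comp)
open Vale.Agent.P366M Vale.Agent.P366M.Gr Vale.Agent.P366M.An Vale.Agent.P366M.Y.C
open Vale.Agent.P210G Vale.Agent.P210H Vale.Agent.P210X
open Vale.Agent.P210L (Vf)

noncomputable section

namespace Vale.Agent.P210N

/-- the inequality at a point of the hypersurface -/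
theorem zst_pt {d : ℕ} {Z : Type} [Mf0 d Z] {γ : Fld d Z} {f l W₁ W₂ F : Z → ℝ}
    {β : Fin d → Z → ℝ} {z : Z} {B e₁ e₂ c : ℝ} (hγ : Met γ) (hf : Smooth f) (hl : Smooth l)
    (s₁ : Smooth W₁) (s₂ : Smooth W₂) (o₁ : ∀ y, 1 ≤ W₁ y) (o₂ : ∀ y, 1 ≤ W₂ y) (hc : 0 ≤ c)
    (hB : gn γ f z ≤ B) (p₁ : lap γ W₁ z + B * gn γ W₁ z ≤ e₁) (p₂ : lap γ W₂ z + B * gn γ W₂ z ≤ e₂)
    (hβ : ∀ i y, β i y = -pd i F y) (hF : F =ᶠ[𝓝 z] fun y => f y + l y +
      (1 / 2 * Real.log (W₁ y) + c * Real.log (W₂ y))) :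
    Rf γ (fun y => f y + l y) z - ip γ l l z - e₁ / W₁ z - 2 * c * (e₂ / W₂ z) +
      (1 - 2 * c) * (1 / 2 * (gn γ W₁ z / W₁ z) ^ 2 + c * (gn γ W₂ z / W₂ z) ^ 2) ≤ Rv γ β z := by
  have d : ∀ {u : Z → ℝ}, Smooth u → ∀ y, DAt u y := fun hu y => CD.differentiable hu (by simp) y
  have sL : Smooth fun y => 1 / 2 * Real.log (W₁ y) + c * Real.log (W₂ y) :=
    CD.add (CD.mul cd_const (CD.log s₁ fun y => by linarith [o₁ y]))
      (CD.mul cd_const (CD.log s₂ fun y => by linarith [o₂ y]))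
  have q : ∀ u : Z → ℝ, iv γ (fun i y => -pd i u y) (fun i y => -pd i u y) z = ip γ u u z :=
    fun u => by
      rw [iv_smul (s := -1) (t := -1) (a := df u) (b := df u) (by simp [df]) (by simp [df]), iv_df]
      ring
  have g0 := gn_nonneg γ f z
  have k := Rv_hardy (v := fun i y => -pd i f y) (a := fun i y => -pd i l y) hγ (g0.trans hB)
    (by rw [q, ← hγ.gn_sq]; exact pow_le_pow_left₀ g0 hB 2)
    (dV_sh hγ ((cc_df hf).neg.add (cc_df hl).neg) z) s₁.two.contDiffAt s₂.two.contDiffAt (o₁ z)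
    (o₂ z) (by norm_num : (0 : ℝ) ≤ 1 / 2) hc p₁ p₂
  have e1 : Rv γ (fun i y => -pd i f y + -pd i l y) z = Rf γ (fun y => f y + l y) z := by
    rw [← Rv_neg_df (Smooth.two (CD.add hf hl)).contDiffAt]
    exact Rv_congr fun i => .of_forall fun y => by
      simp only [pd_add (d hf y) (d hl y), neg_add]
  have e2 : Rv γ (fun i y => -pd i f y + -pd i l y +
      -1 * pd i (fun y => 1 / 2 * Real.log (W₁ y) + c * Real.log (W₂ y)) y) z = Rv γ β z :=
    Rv_congr fun i => (pd_congr_ev hF i).mono fun y hy => by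
      simp only [hβ, hy, pd_add (d (CD.add hf hl) y) (d sL y), pd_add (d hf y) (d hl y)]
      ring
  rw [e1, e2, q] at k
  linarith

theorem zst : ZST := by
  intro k Y Z I _ _ 𝒰 g f h u c e O K Λ Λ' P S ι F hP hO hι rg mc
  obtain ⟨L, hL⟩ := F.cpt.bddAbove_image (F.met.cont_gn F.smf.one).continuousOn
  have mK : ∀ z, ι z ∈ K := fun z => F.la_sub (hι.rng ▸ mem_range_self z : ι z ∈ La 𝒰 u \ S).1
  refine ⟨max Λ' L, fun B hB => ?_⟩
  have mB : Mc g ι B := fun Q hQ z => (mc Q hQ z).trans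
    (mul_le_mul_of_nonneg_right ((le_max_left _ _).trans hB) (gn_nonneg _ _ _))
  refine ⟨mB, fun C₁ C₂ C Γ η θ₁ θ₂ T₁ T₂ h₁ h₂ W₁ w₁ q₁ W₂ w₂ q₂ η0 H₁ H₂ cC => ?_⟩
  have hγ := hι.met F.met
  obtain ⟨l, sl, hl⟩ := F.state k.succ_pos hι rg hP isOpen_univ
    (fun z _ => Eventually.mono (F.opn.mem_nhds (F.sub (mK z))) hO) cC (subset_univ _) η0
  obtain ⟨D⟩ := P210V.exists_Ex hι cC isOpen_univ (subset_univ _)
  have sF : Smooth fun y => f y + D.eF l y + lg W₁ W₂ y :=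
    CD.add (CD.add F.smf (D.sm_eF sl)) (CD.add
      (CD.mul cd_const (CD.log H₁.smW fun y => by linarith [H₁.W1 y]))
      (CD.mul cd_const (CD.log H₂.smW fun y => by linarith [H₂.W1 y])))
  refine ⟨fun j y => -pd j (fun y => f y + D.eF l y + lg W₁ W₂ y) y, (cc_df sF).neg, fun z hz => ?_⟩
  have ci := hι.emb.continuous.continuousAt (x := z)
  have a1 : ∀ i y, pullC ι (fun j y => -pd j (fun y => f y + D.eF l y + lg W₁ W₂ y) y) i y =
      -pd i (fun y => f (ι y) + D.eF l (ι y) + lg W₁ W₂ (ι y)) y := fun i y => by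
    rw [← pullC_pd (CD.differentiable sF (by simp) _) (hι.sm y)]
    simp only [pullC, mul_neg, Finset.sum_neg_distrib]
  have a2 : (fun y => f (ι y) + D.eF l (ι y) + lg W₁ W₂ (ι y)) =ᶠ[𝓝 z] fun y => f (ι y) + l y +
      (1 / 2 * Real.log (W₁ (ι y)) + 1 / 4 * Real.log (W₂ (ι y))) :=
    (ci.eventually (D.wt_one hz)).mono fun y hy => by simp only [D.eF_ι, hy, one_mul, lg]
  have a3 : gn (pull ι g) (fun y => f (ι y)) z ≤ B :=
    (P366H.gn_res F.met hγ (hι.sm z) (CD.differentiable F.smf (by simp) _)).trans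
      ((hL ⟨_, mK z, rfl⟩).trans ((le_max_right _ _).trans hB))
  have p₁ := (H₁.sub Z ι hγ mB z (hι.sm z)).sup
  have p₂ := (H₂.sub Z ι hγ mB z (hι.sm z)).sup
  have key := fun c hc => zst_pt (c := c) hγ (smooth_comp hι.sm F.smf) sl (smooth_comp hι.sm H₁.smW)
    (smooth_comp hι.sm H₂.smW) (fun y => H₁.W1 _) (fun y => H₂.W1 _) hc a3 p₁ p₂ a1
  have b1 := hl z hz
  have b2 := div_le_self η0.le (H₁.W1 (ι z))
  have b3 := div_le_self η0.le (H₂.W1 (ι z))
  refine ⟨?_, fun hn => ?_⟩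
  · have k1 := key _ (by norm_num) a2
    rw [sub_div, mul_div_assoc, zero_mul, sub_zero] at k1
    linarith [sq_nonneg (gn (pull ι g) (fun z => W₁ (ι z)) z / W₁ (ι z))]
  · have k1 := key 0 le_rfl (a2.trans ((ci.eventually (H₂.cpt.isClosed.isOpen_compl.mem_nhds hn)).mono
      fun y hy => by simp only [(H₂.out _ hy).1, Real.log_one, mul_zero]))
    rw [sub_div, mul_div_assoc] at k1
    linarith

end Vale.Agent.P210N
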