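import Vale.Agent.P210R.Sta

/-!
# P210N: the real inequality of a sweep in the outer region (helper82)
-/

namespace Vale.Agent.P210N

theorem algo : P210R.ALGO := by
  intro r s α δ a γ A S A₀ T Y H L r0 s0 α0 δ0 h1 A0 h2 h3 γ0 h4 T0 TS SA hY hL H0 hH
  have Y0 : 0 ≤ Y := nonneg_of_mul_nonneg_left ((sq_nonneg _).trans hY) r0
  have a0 : 0 < a := by linarith
  have k1 : T ^ 2 / r ≤ 4 * Y := by
    rw [div_le_iff₀ r0]
    nlinarith
  have k2 : A * δ * (T ^ 2 / r) ≤ a * Y := by
    nlinarith [mul_le_mul_of_nonneg_left k1 (mul_nonneg A0 δ0.le), mul_le_mul_of_nonneg_right h2 Y0]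
  have k3 : γ * α * L ≤ γ * α * (T / r) := mul_le_mul_of_nonneg_left hL (by positivity)
  have k4 : γ ≤ 1 / 4 := by nlinarith
  have k5 : δ / 2000 * α ^ 2 / s ≤ 1 / 200 * (α ^ 2 / s) := by
    rw [mul_div_assoc]
    exact mul_le_mul_of_nonneg_right (by linarith) (by positivity)
  have k6 : 0 ≤ α / s * S := mul_nonneg (by positivity) (T0.trans TS)
  have k7 := mul_nonneg a0.le Y0
  have k8 : ∀ c : ℝ, 0 ≤ c → c ≤ 1 → r ≤ c * s → (1 - c) ^ 2 / 4 * α ^ 2 / r ≤ H := fun c c0 c1 h => by
    rw [div_le_iff₀ r0]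
    refine le_trans ?_ (hH (by nlinarith))
    rw [show (1 - c) ^ 2 / 4 * α ^ 2 = (α * ((1 - c) / 2)) ^ 2 by ring, mul_div_assoc]
    refine pow_le_pow_left₀ (by positivity) (mul_le_mul_of_nonneg_left ?_ α0.le) 2
    rw [le_div_iff₀ (by positivity)]
    linarith
  have k9 : r ≤ s → α ^ 2 / s ≤ α ^ 2 / r := fun h => div_le_div_of_nonneg_left (sq_nonneg _) r0 h
  have p0 : 0 ≤ α ^ 2 / r := by positivity
  rcases le_total r (1 / 4 * s) with h | h
  · have m1 := k8 _ (by norm_num) (by norm_num) h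
    have m2 := k9 (by linarith)
    have m3 : γ * α * (T / r) ≤ a / 8 * (T ^ 2 / r) + 1 / 32 * (α ^ 2 / r) := by
      rw [← mul_div_assoc, ← mul_div_assoc, ← mul_div_assoc, ← add_div]
      refine div_le_div_of_nonneg_right ?_ r0.le
      nlinarith [mul_le_mul_of_nonneg_right h4 (sq_nonneg T), sq_nonneg (16 * γ * T - α)]
    have m4 := mul_le_mul_of_nonneg_left k1 a0.le
    rw [if_pos (by linarith), mul_div_assoc] at *
    linarith
  · have m1 : γ * α * (T / r) ≤ α / s * S := by
      have : T / r ≤ 4 * (S / s) := by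
        rw [← mul_div_assoc, div_le_div_iff₀ r0 s0]
        nlinarith [mul_le_mul_of_nonneg_right TS s0.le, T0.trans TS]
      calc _ ≤ γ * α * (4 * (S / s)) := mul_le_mul_of_nonneg_left this (by positivity)
        _ = 4 * γ * (α / s * S) := by ring
        _ ≤ _ := mul_le_of_le_one_left k6 (by linarith)
    split_ifs with h'
    · have m2 := k8 _ (by norm_num) (by norm_num) h'
      have m3 := k9 (by linarith)
      rw [mul_div_assoc] at m2
      linarith
    · linarith

end Vale.Agent.P210N
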