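import Vale.Agent.P210R.Defs

/-!
# P210N: truncation of a potential (helper82)
-/

open Filter Topology Set
open scoped ContDiff
open Vale.Agent.P366M Vale.Agent.P210G

noncomputable section

namespace Vale.Agent.P210N

/-- the profile of the truncation -/
theorem prof : ∃ D ≥ (1 : ℝ), ∀ h > (0 : ℝ), ∀ A ≥ 3 * h, ∃ Γ : ℝ → ℝ, ContDiff ℝ ∞ Γ ∧
    (∀ t ≤ h, Γ t = t) ∧ (∀ t, 2 * h ≤ t → Γ t = A) ∧ (∀ t, 0 ≤ t → 0 ≤ Γ t ∧ Γ t ≤ A) ∧
    (∀ t, 0 ≤ t → t ≤ A → t ≤ Γ t) ∧ ∀ t, h ≤ t → deriv Γ t ^ 2 * t ^ 3 ≤ D * Γ t ^ 3 := by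
  have sT : ContDiff ℝ ∞ Real.smoothTransition := Real.smoothTransition.contDiff
  obtain ⟨D, hD⟩ := isCompact_Icc.exists_bound_of_continuousOn
    ((sT.continuous_deriv (by simp)).continuousOn (s := Icc 0 1))
  have D0 : 0 ≤ D := (norm_nonneg _).trans (hD 0 (by simp))
  refine ⟨(1 + 4 * D) ^ 2, by nlinarith, fun h h0 A hA => ?_⟩
  obtain ⟨χ, e⟩ : ∃ χ : ℝ → ℝ, χ = fun t => Real.smoothTransition (2 - t / h) := ⟨_, rfl⟩
  have sχ : ContDiff ℝ ∞ χ := e ▸ sT.comp (by fun_prop)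
  have c0 : ∀ t, 0 ≤ χ t := fun t => e ▸ Real.smoothTransition.nonneg _
  have c1 : ∀ t, χ t ≤ 1 := fun t => e ▸ Real.smoothTransition.le_one _
  have c2 : ∀ t ≤ h, χ t = 1 := fun t ht => e ▸ Real.smoothTransition.one_of_one_le (by
    linarith [(div_le_one h0).2 ht])
  have c3 : ∀ t, 2 * h ≤ t → χ t = 0 := fun t ht => e ▸ Real.smoothTransition.zero_of_nonpos (by
    linarith [(le_div_iff₀ h0).2 ht])
  have c4 : ∀ t, h ≤ t → t ≤ 2 * h → ∃ a, HasDerivAt χ a t ∧ |t * a| ≤ 2 * D := fun t a b => by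
    have k := ((sT.differentiable (by simp)) (2 - t / h)).hasDerivAt.comp t
      (((hasDerivAt_id t).div_const h).const_sub 2)
    refine ⟨_, by rw [e]; exact k, ?_⟩
    have k1 := (one_le_div h0).2 a
    have k2 := (div_le_iff₀ h0).2 b
    have k3 := hD (2 - t / h) ⟨by linarith, by linarith⟩
    rw [show t * (deriv Real.smoothTransition (2 - t / h) * -(1 / h)) =
      -(t / h) * deriv Real.smoothTransition (2 - t / h) by ring, abs_mul, abs_neg,
      abs_of_nonneg (by linarith)]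
    exact mul_le_mul k2 k3 (abs_nonneg _) (by norm_num)
  have q1 : ∀ t, χ t ^ 2 ≤ 1 := fun t => pow_le_one₀ (c0 t) (c1 t)
  have d0 : ∀ t, 0 < t + χ t ^ 2 * (A - t) := fun t => by
    rcases le_total t h with k | k
    · rw [c2 t k]; linarith
    · nlinarith [q1 t, sq_nonneg (χ t), mul_nonneg (sub_nonneg.2 (q1 t)) (sub_nonneg.2 k),
        mul_nonneg (sq_nonneg (χ t)) (sub_nonneg.2 hA)]
  have A0 : 0 < A := by linarith
  have g2 : ∀ t, 2 * h ≤ t → t * A / (t + χ t ^ 2 * (A - t)) = A := fun t k => by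
    have : t ≠ 0 := by linarith [h0] |> fun k' : 0 < t => k'.ne'
    rw [c3 t k, zero_pow two_ne_zero, zero_mul, add_zero, mul_div_cancel_left₀ _ this]
  refine ⟨fun t => t * A / (t + χ t ^ 2 * (A - t)), ContDiff.div (by fun_prop) (by fun_prop)
    fun t => (d0 t).ne', fun t k => ?_, g2, fun t k => ⟨(div_nonneg (by positivity) (d0 t).le), ?_⟩,
    fun t k k' => ?_, fun t k => ?_⟩
  · simp only [c2 t k, one_pow, one_mul, add_sub_cancel, mul_div_cancel_right₀ _ A0.ne']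
  · rcases le_total t A with k' | k'
    · rw [div_le_iff₀ (d0 t)]
      nlinarith [mul_nonneg A0.le (mul_nonneg (sq_nonneg (χ t)) (sub_nonneg.2 k'))]
    · exact (g2 t (by linarith)).le
  · rw [le_div_iff₀ (d0 t)]
    nlinarith [mul_nonneg k (mul_nonneg (sub_nonneg.2 (q1 t)) (sub_nonneg.2 k'))]
  have t0 : 0 < t := by linarith
  rcases lt_or_ge (2 * h) t with k' | k'
  · have : (fun t => t * A / (t + χ t ^ 2 * (A - t))) =ᶠ[𝓝 t] fun _ => A :=
      (lt_mem_nhds k').mono fun y hy => g2 y hy.le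
    rw [this.deriv_eq, deriv_const, zero_pow two_ne_zero, zero_mul]
    have := d0 t
    positivity
  obtain ⟨a, a1, a2⟩ := c4 t k k'
  have k1 := (((hasDerivAt_id t).mul_const A).div ((hasDerivAt_id t).add ((a1.pow 2).mul
    ((hasDerivAt_id t).const_sub A))) (d0 t).ne').deriv
  have k2 : deriv (fun t => t * A / (t + χ t ^ 2 * (A - t))) t =
      A * (χ t * (χ t * A - 2 * (t * a) * (A - t))) / (t + χ t ^ 2 * (A - t)) ^ 2 := by
    refine Eq.trans k1 ?_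
    simp only [id, Pi.add_apply, Pi.mul_apply, Pi.pow_apply]
    congr 1
    simp
    ring
  have k3 : |χ t * A - 2 * (t * a) * (A - t)| ≤ (1 + 4 * D) * A := by
    have b1 := abs_le.1 a2
    have b2 : 0 ≤ A - t := by linarith
    have b3 := mul_le_mul_of_nonneg_right (c1 t) A0.le
    have b4 := mul_nonneg (c0 t) A0.le
    have b5 := mul_nonneg D0 t0.le
    rw [abs_le]
    constructor <;> nlinarith [mul_le_mul_of_nonneg_right b1.1 b2, mul_le_mul_of_nonneg_right b1.2 b2]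
  have k4 := sq_le_sq' (abs_le.1 k3).1 (abs_le.1 k3).2
  have k5 : χ t ^ 2 * A ≤ t + χ t ^ 2 * (A - t) := by
    nlinarith [mul_nonneg (sub_nonneg.2 (q1 t)) t0.le]
  have k6 := d0 t
  rw [k2]
  beta_reduce
  generalize χ t * A - 2 * (t * a) * (A - t) = y at *
  generalize t + χ t ^ 2 * (A - t) = d at *
  rw [div_pow, div_pow, div_mul_eq_mul_div, ← mul_div_assoc, div_le_div_iff₀ (by positivity)
    (by positivity)]
  have k7 : χ t ^ 2 * A * y ^ 2 ≤ d * ((1 + 4 * D) * A) ^ 2 :=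
    mul_le_mul k5 k4 (sq_nonneg _) k6.le
  have k8 := mul_le_mul_of_nonneg_right k7 (by positivity : 0 ≤ A * t ^ 3 * d ^ 3)
  calc _ = χ t ^ 2 * A * y ^ 2 * (A * t ^ 3 * d ^ 3) := by ring
    _ ≤ _ := k8
    _ = _ := by ring

open Classical in
theorem gam : P210R.GAM := by
  obtain ⟨D, D1, hD⟩ := prof
  refine ⟨2 * D, by linarith, fun n X _ _ g θ Λ U V j h hg θ0 hP => ?_⟩
  obtain ⟨L, hL⟩ := isCompact_univ.bddAbove_image hP.sml.cont.continuousOn
  have L1 : ∀ x, Λ x ≤ |L| := fun x => (hL ⟨x, trivial, rfl⟩).trans (le_abs_self L)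
  obtain ⟨r, r1, r2, r3⟩ : ∃ r : ℝ, 1 ≤ r ∧ h ≤ r ∧ |L| ≤ θ * r :=
    ⟨max (max 1 h) (|L| / θ), (le_max_left _ _).trans (le_max_left _ _),
      (le_max_right _ _).trans (le_max_left _ _), (div_le_iff₀' θ0).1 (le_max_right _ _)⟩
  have op : IsOpen {x ∈ U j | V j x < 3 * r} := isOpen_iff_mem_nhds.2 fun x hx =>
    inter_mem ((hP.opn j).mem_nhds hx.1) ((hP.sm j x hx.1).continuousAt.eventually (gt_mem_nhds hx.2))
  refine ⟨3 * r, {x ∈ U j | V j x ≤ 2 * r}ᶜ, {x ∈ U j | V j x < 3 * r}ᶜ, (hP.cl j _).isOpen_compl,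
    op.isClosed_compl, compl_subset_compl.2 fun x hx => ⟨hx.1, by linarith [hx.2]⟩,
    fun x hx => ⟨(not_not.1 hx).1, (not_not.1 hx).2.le⟩,
    fun x hx k => by linarith [not_le.1 fun k' => hx ⟨k, k'⟩], fun A₀ => ?_⟩
  obtain ⟨Γ, s, g1, g2, g3, g4, g5⟩ := hD r (by linarith) (max A₀ (3 * r)) (le_max_right _ _)
  refine ⟨_, le_max_left A₀ (3 * r), ?_⟩
  have A1 : 3 * r ≤ max A₀ (3 * r) := le_max_right _ _
  generalize max A₀ (3 * r) = A at *
  obtain ⟨W, e⟩ : ∃ W : X → ℝ, W = fun x => if x ∈ U j then Γ (V j x) else A := ⟨_, rfl⟩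
  have e1 : ∀ x ∈ U j, W x = Γ (V j x) := fun x hx => by simp only [e, if_pos hx]
  have e2 : ∀ x ∈ {x ∈ U j | V j x ≤ 2 * r}ᶜ, W x = A := fun x hx => by
    by_cases k : x ∈ U j
    · rw [e1 x k, g2 _ (not_le.1 fun k' => hx ⟨k, k'⟩).le]
    · simp only [e, if_neg k]
  have v1 : ∀ x ∈ U j, W =ᶠ[𝓝 x] fun y => Γ (V j y) := fun x hx =>
    Eventually.mono ((hP.opn j).mem_nhds hx) e1
  have v2 : ∀ x ∉ U j, W =ᶠ[𝓝 x] fun _ => A := fun x hx =>
    Eventually.mono ((hP.cl j (2 * r)).isOpen_compl.mem_nhds fun k => hx k.1) e2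
  refine ⟨W, cd_of_cAt le_rfl fun x => ?_, e2, fun x k => ⟨fun k' => ?_, fun k' => ?_⟩, fun x => ?_⟩
  · by_cases k : x ∈ U j
    · exact (s.contDiffAt.compM (hP.sm j x k)).congr_of_eventuallyEq (v1 x k)
    · exact cAt_const.congr_of_eventuallyEq (v2 x k)
  · rw [e1 x k, g1 _ (k'.trans r2)]
  · rw [e1 x k]; exact g4 _ (hP.nn j x k) (k'.trans A1)
  have l0 := hP.l0 x
  by_cases k : x ∈ U j
  swap
  · rw [ip_congr (v2 x k) (v2 x k), ip_const_left, (v2 x k).eq_of_nhds]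
    have : 0 < A := by linarith
    exact ⟨this.le, le_rfl, by positivity⟩
  have V0 := hP.nn j x k
  have a1 := hP.gr j x k
  rw [e1 x k]
  refine ⟨(g3 _ V0).1, (g3 _ V0).2, ?_⟩
  rcases lt_or_ge (V j x) r with k' | k'
  · have : W =ᶠ[𝓝 x] V j := by
      filter_upwards [v1 x k, (hP.sm j x k).continuousAt.eventually (gt_mem_nhds k')] with y a b
      rw [a, g1 _ b.le]
    rw [ip_congr this this, g1 _ k'.le]
    refine a1.trans (mul_le_mul_of_nonneg_left ?_ V0)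
    nlinarith [mul_nonneg θ0.le (sq_nonneg (V j x))]
  · have d := ((s.differentiable (by simp)) (V j x)).hasDerivAt
    have d' := (hP.sm j x k).differentiableAt (by simp)
    rw [ip_congr (v1 x k) (v1 x k), ip_comp d d d' d', ← sq]
    have a2 : Λ x ≤ θ * V j x ^ 2 :=
      (L1 x).trans (r3.trans (mul_le_mul_of_nonneg_left (by nlinarith) θ0.le))
    have a3 : ip g (V j) (V j) x ≤ 2 * θ * V j x ^ 3 := by
      nlinarith [mul_le_mul_of_nonneg_left a2 V0]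
    have a4 := mul_le_mul_of_nonneg_left a3 (sq_nonneg (deriv Γ (V j x)))
    have a5 := mul_le_mul_of_nonneg_left (g5 _ k') θ0.le
    nlinarith [mul_nonneg (g3 _ V0).1 l0]

end Vale.Agent.P210N
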